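import Vale.Agent.P287.H684.TW

/-!
Dimension of the space of classes of polynomials of total degree at most `m` in `k[x][y]/(g)`,
`g` monic in `y` of degree `n`, of total degree `n`.
-/

namespace Vale.Agent.P287.H684

open Polynomial Module

variable {k : Type*} [Field k]

/-- Polynomials of total degree at most `m`. -/
def PT (k : Type*) [Field k] (m : ℕ) : Submodule k k[X][X] where
  carrier := {p | TW m p}
  add_mem' := fun hp hq => TW.add hp hq
  zero_mem' := TW_zero m
  smul_mem' := fun c _ hp => TW.smul hp c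

lemma mem_PT {m : ℕ} {p : k[X][X]} : p ∈ PT k m ↔ TW m p := Iff.rfl

lemma PT_mono {m m' : ℕ} (h : m ≤ m') : PT k m ≤ PT k m' := fun _ hp => TW.mono hp h

/-- Polynomials of total degree at most `m` and `y`-degree less than `n`. -/
def PB (k : Type*) [Field k] (n m : ℕ) : Submodule k k[X][X] where
  carrier := {p | TW m p ∧ ∀ j, n ≤ j → p.coeff j = 0}
  add_mem' := fun {p q} hp hq =>
    ⟨hp.1.add hq.1, fun j hj => by rw [coeff_add, hp.2 j hj, hq.2 j hj, add_zero]⟩
  zero_mem' := ⟨TW_zero m, fun j _ => coeff_zero j⟩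
  smul_mem' := fun c p hp => ⟨hp.1.smul c, fun j hj => by
    rw [coeff_smul, hp.2 j hj, smul_zero]⟩

lemma mem_PB {n m : ℕ} {p : k[X][X]} :
    p ∈ PB k n m ↔ TW m p ∧ ∀ j, n ≤ j → p.coeff j = 0 := Iff.rfl

/-- Coefficients of an element of `PB n m`. -/
noncomputable def coeffMap (n m : ℕ) : PB k n m →ₗ[k] (Π j : Fin n, Fin (m + 1 - j) → k) where
  toFun p := fun j i => ((p : k[X][X]).coeff j).coeff i
  map_add' p q := by ext j i; simp
  map_smul' c p := by ext j i; simp [coeff_smul]

lemma coeffMap_bijective (n m : ℕ) : Function.Bijective (coeffMap (k := k) n m) := by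
  constructor
  · refine (injective_iff_map_eq_zero _).mpr ?_
    rintro ⟨p, hp⟩ h0
    rw [mem_PB] at hp
    apply Subtype.ext
    change p = 0
    ext j i
    rw [coeff_zero, coeff_zero]
    by_cases hj : j < n
    · by_cases hi : i < m + 1 - j
      · have := congrFun (congrFun h0 ⟨j, hj⟩) ⟨i, hi⟩
        exact this
      · exact TW_iff.mp hp.1 i j (by omega)
    · rw [hp.2 j (by omega), coeff_zero]
  · intro a
    set q : ℕ → k[X] := fun j => if hj : j < n then
      ∑ i : Fin (m + 1 - j), Polynomial.monomial (i : ℕ) (a ⟨j, hj⟩ i) else 0 with hq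
    set p : k[X][X] := ∑ j ∈ Finset.range n, Polynomial.monomial j (q j) with hp
    have hpc : ∀ j, p.coeff j = if j < n then q j else 0 := by
      intro j
      rw [hp, finsetSum_coeff]
      simp only [coeff_monomial]
      rw [Finset.sum_ite_eq' (Finset.range n) j]
      simp only [Finset.mem_range]
    have hqc : ∀ (j : ℕ) (hj : j < n) (i : ℕ), (q j).coeff i =
        if hi : i < m + 1 - j then a ⟨j, hj⟩ ⟨i, hi⟩ else 0 := by
      intro j hj i
      simp only [hq, dif_pos hj, finsetSum_coeff, coeff_monomial]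
      split_ifs with hi
      · rw [Finset.sum_eq_single (⟨i, hi⟩ : Fin (m + 1 - j))]
        · simp
        · intro b _ hb
          rw [if_neg]
          intro h1
          exact hb (Fin.ext h1)
        · intro h1
          exact absurd (Finset.mem_univ _) h1
      · refine Finset.sum_eq_zero fun b _ => ?_
        rw [if_neg]
        intro h1
        exact hi (h1 ▸ b.2)
    have hpE : p ∈ PB k n m := by
      constructor
      · rw [TW_iff]
        intro i j hij
        rw [hpc]
        split_ifs with hj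
        · rw [hqc j hj, dif_neg (by omega)]
        · exact coeff_zero i
      · intro N hN
        rw [hpc, if_neg (by omega)]
    refine ⟨⟨p, hpE⟩, ?_⟩
    ext j i
    change (p.coeff j).coeff i = a j i
    rw [hpc, if_pos j.2, hqc j.1 j.2 i.1, dif_pos i.2]

noncomputable def coeffEquiv (n m : ℕ) : PB k n m ≃ₗ[k] (Π j : Fin n, Fin (m + 1 - j) → k) :=
  LinearEquiv.ofBijective (coeffMap n m) (coeffMap_bijective n m)

instance finite_PB (n m : ℕ) : Module.Finite k (PB k n m) :=
  Module.Finite.equiv (coeffEquiv n m).symm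

lemma finrank_PB (n m : ℕ) : finrank k (PB k n m) = ∑ j : Fin n, (m + 1 - j) := by
  rw [(coeffEquiv n m).finrank_eq, Module.finrank_pi_fintype]
  simp

lemma PT_eq (m : ℕ) : PT k m = PB k (m + 1) m := by
  ext p
  rw [mem_PT, mem_PB]
  exact ⟨fun h => ⟨h, fun j hj => h.coeff_eq_zero (by omega)⟩, fun h => h.1⟩

instance finite_PT (m : ℕ) : Module.Finite k (PT k m) := by
  rw [PT_eq]
  infer_instance

lemma sum_aux (n m : ℕ) (h : n ≤ m + 1) :
    2 * (∑ j : Fin n, (m + 1 - j)) + n * n = n * (2 * m + 3) := by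
  rw [Fin.sum_univ_eq_sum_range (fun j => m + 1 - j)]
  induction n with
  | zero => simp
  | succ n ih =>
    rw [Finset.sum_range_succ, mul_add]
    have h1 := ih (by omega)
    obtain ⟨l, hl⟩ := Nat.exists_eq_add_of_le h
    have h2 : m = n + l := by omega
    subst h2
    have h3 : n + l + 1 - n = l + 1 := by omega
    rw [h3]
    nlinarith [h1]

lemma two_mul_finrank_PB {n m : ℕ} (h : n ≤ m + 1) :
    2 * finrank k (PB k n m) + n * n = n * (2 * m + 3) := by
  rw [finrank_PB, sum_aux n m h]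

lemma finrank_PT (m : ℕ) : finrank k (PT k m) = (m + 2).choose 2 := by
  rw [PT_eq]
  have h1 := two_mul_finrank_PB (k := k) (le_refl (m + 1))
  have h2 : (m + 2).choose 2 * 2 = (m + 2) * (m + 1) := by
    have := Nat.choose_two_right (m + 2)
    rw [this]
    exact Nat.div_mul_cancel (Nat.even_mul_pred_self (m + 2)).two_dvd
  nlinarith

section Quot

variable {B : Type*} [AddCommGroup B] [Module k B] {g : k[X][X]} {n : ℕ}

/-- The classes of the polynomials of total degree at most `m`. -/
noncomputable def Bk (π : k[X][X] →ₗ[k] B) (m : ℕ) : Submodule k B := (PT k m).map π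

instance (π : k[X][X] →ₗ[k] B) (m : ℕ) : Module.Finite k (Bk π m) := by
  unfold Bk
  infer_instance

lemma Bk_mono (π : k[X][X] →ₗ[k] B) {m m' : ℕ} (h : m ≤ m') : Bk π m ≤ Bk π m' :=
  Submodule.map_mono (PT_mono h)

lemma Bk_eq {π : k[X][X] →ₗ[k] B} (hπ : ∀ p, π p = 0 ↔ g ∣ p) (hg : g.Monic)
    (hgn : g.natDegree = n) (hgW : TW n g) (m : ℕ) : Bk π m = (PB k n m).map π := by
  apply le_antisymm
  · rintro _ ⟨p, hp, rfl⟩
    refine ⟨p %ₘ g, ⟨TW.modByMonic hg hgn hgW hp, ?_⟩, ?_⟩
    · intro j hj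
      by_cases hg1 : g = 1
      · rw [hg1, modByMonic_one, coeff_zero]
      refine coeff_eq_zero_of_natDegree_lt ?_
      have := natDegree_modByMonic_lt p hg hg1
      omega
    · rw [← sub_eq_zero, ← map_sub, hπ]
      exact ⟨-(p /ₘ g), by
        have := modByMonic_add_div p g
        linear_combination this⟩
  · exact Submodule.map_mono fun p hp => hp.1

/-- The dimension of `B_m`. -/
theorem finrank_Bk {π : k[X][X] →ₗ[k] B} (hπ : ∀ p, π p = 0 ↔ g ∣ p) (hg : g.Monic)
    (hgn : g.natDegree = n) (hgW : TW n g) (m : ℕ) :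
    finrank k (Bk π m) = ∑ j : Fin n, (m + 1 - j) := by
  rw [Bk_eq hπ hg hgn hgW, ← finrank_PB (k := k)]
  have h2 : Function.Injective (π.domRestrict (PB k n m)) := by
    rw [injective_iff_map_eq_zero]
    rintro ⟨p, hp⟩ hp0
    have h3 : π p = 0 := hp0
    apply Subtype.ext
    change p = 0
    rw [hπ] at h3
    rcases Nat.eq_zero_or_pos n with h0 | h0
    · ext1 j
      rw [hp.2 j (by omega), coeff_zero]
    by_contra hp0
    have h4 : p.natDegree < n := by
      by_contra h5
      exact hp0 (leadingCoeff_eq_zero.1 (hp.2 p.natDegree (by omega)))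
    have h5 := natDegree_le_of_dvd h3 hp0
    omega
  have h3 := (LinearEquiv.ofInjective _ h2).finrank_eq
  rw [LinearMap.range_domRestrict] at h3
  exact h3.symm

/-- `2 dim B_m = n (2 m + 3 - n)` for `m ≥ n - 1`. -/
theorem two_mul_finrank_Bk {π : k[X][X] →ₗ[k] B} (hπ : ∀ p, π p = 0 ↔ g ∣ p) (hg : g.Monic)
    (hgn : g.natDegree = n) (hgW : TW n g) {m : ℕ} (h : n ≤ m + 1) :
    2 * finrank k (Bk π m) + n * n = n * (2 * m + 3) := by
  rw [finrank_Bk hπ hg hgn hgW, sum_aux n m h]

/-- `dim B_m + dim B_{m+1}` is odd if `n` is odd. -/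
theorem odd_finrank {π : k[X][X] →ₗ[k] B} (hπ : ∀ p, π p = 0 ↔ g ∣ p) (hg : g.Monic)
    (hgn : g.natDegree = n) (hgW : TW n g) {m : ℕ} (h : n ≤ m + 1) (hn : Odd n) :
    Odd (finrank k (Bk π m) + finrank k (Bk π (m + 1))) := by
  have h1 := two_mul_finrank_Bk hπ hg hgn hgW h
  have h2 := two_mul_finrank_Bk hπ hg hgn hgW (show n ≤ m + 1 + 1 by omega)
  obtain ⟨r, rfl⟩ := hn
  have h3 : finrank k (Bk π m) + finrank k (Bk π (m + 1)) + (2 * r + 1) * (2 * r + 1) =
      (2 * r + 1) * (2 * m + 4) := by nlinarith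
  have h4 : Even (finrank k (Bk π m) + finrank k (Bk π (m + 1)) + (2 * r + 1) * (2 * r + 1)) := by
    rw [h3]
    exact ⟨(2 * r + 1) * (m + 2), by ring⟩
  have h5 : Odd ((2 * r + 1) * (2 * r + 1)) := ⟨2 * r * r + 2 * r, by ring⟩
  by_contra h6
  rw [Nat.not_odd_iff_even] at h6
  exact (Nat.not_even_iff_odd.2 (h6.add_odd h5)) h4

end Quot

end Vale.Agent.P287.H684
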