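import Vale.Agent.P287.H684.TW

/-!
Top forms of polynomials in `k[x][y]`, by means of `x ↦ t`, `y ↦ z t`, over any field.
-/

namespace Vale.Agent.P287.H684

open Polynomial

variable {k : Type*} [Field k]

/-- `p(x, y) ↦ p(t, z t)`, in `k[z][t]`. -/
noncomputable def Th : k[X][X] →+* k[X][X] :=
  eval₂RingHom (eval₂RingHom ((C : k[X] →+* k[X][X]).comp C) X) (C X * X)

lemma coeff_Th (p : k[X][X]) (d j : ℕ) :
    ((Th p).coeff d).coeff j = if j ≤ d then (p.coeff j).coeff (d - j) else 0 := by
  classical
  induction p using Polynomial.induction_on' with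
  | add p q hp hq =>
    rw [map_add, coeff_add, coeff_add, hp, hq, coeff_add, coeff_add]
    split_ifs <;> simp
  | monomial n a =>
    induction a using Polynomial.induction_on' with
    | add p q hp hq =>
      rw [map_add, map_add, coeff_add, coeff_add, hp, hq, coeff_add]
      split_ifs <;> simp [coeff_monomial]
    | monomial i a =>
      have h1 : Th (monomial n (monomial i a)) = monomial (i + n) (monomial n a) := by
        simp only [Th, coe_eval₂RingHom, eval₂_monomial, RingHom.comp_apply]
        rw [mul_pow, ← C_pow, ← C_mul_X_pow_eq_monomial, ← C_mul_X_pow_eq_monomial, C_mul, C_pow]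
        ring
      rw [h1]
      simp only [coeff_monomial]
      by_cases hd : i + n = d
      · subst hd
        simp only [if_true]
        by_cases hj : n = j
        · subst hj
          simp
        · simp [hj]
          rw [coeff_monomial, if_neg hj]
      · simp only [hd, if_false, coeff_zero]
        by_cases hjd : j ≤ d
        · simp only [hjd, if_true]
          by_cases hj : n = j
          · subst hj
            simp only [if_true, coeff_monomial]
            rw [if_neg (by omega)]
          · simp [hj]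
        · simp [hjd]

/-- The form of degree `m`. -/
noncomputable def top (m : ℕ) (p : k[X][X]) : k[X] := (Th p).coeff m

lemma coeff_top (m : ℕ) (p : k[X][X]) (j : ℕ) :
    (top m p).coeff j = if j ≤ m then (p.coeff j).coeff (m - j) else 0 := coeff_Th p m j

lemma Th_injective : Function.Injective (Th (k := k)) := by
  rw [injective_iff_map_eq_zero]
  intro p hp
  ext j i
  have := coeff_Th p (i + j) j
  rw [hp] at this
  simpa using this.symm

lemma TW_iff_Th {m : ℕ} {p : k[X][X]} : TW m p ↔ (Th p).natDegree ≤ m := by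
  rw [natDegree_le_iff_coeff_eq_zero]
  constructor
  · intro h N hN
    ext j
    rw [coeff_Th, coeff_zero]
    split_ifs with hj
    · exact TW_iff.1 h _ _ (by omega)
    · rfl
  · intro h j hj
    by_contra hlt
    push Not at hlt
    have h1 := h ((p.coeff j).natDegree + j) hlt
    have h2 := coeff_Th p ((p.coeff j).natDegree + j) j
    rw [h1] at h2
    simp only [coeff_zero, le_add_iff_nonneg_left, zero_le, if_true, Nat.add_sub_cancel] at h2
    exact hj (leadingCoeff_eq_zero.mp h2.symm)

lemma top_zero (m : ℕ) : top m (0 : k[X][X]) = 0 := by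
  simp [top]

lemma top_add (m : ℕ) (p q : k[X][X]) : top m (p + q) = top m p + top m q := by
  simp [top]

lemma top_sub (m : ℕ) (p q : k[X][X]) : top m (p - q) = top m p - top m q := by
  simp [top]

lemma top_neg (m : ℕ) (p : k[X][X]) : top m (-p) = -top m p := by
  simp [top]

lemma top_sum {ι : Type*} (s : Finset ι) (m : ℕ) (p : ι → k[X][X]) :
    top m (∑ i ∈ s, p i) = ∑ i ∈ s, top m (p i) := by
  simp [top]

lemma top_mul {m n : ℕ} {p q : k[X][X]} (hp : TW m p) (hq : TW n q) :
    top (m + n) (p * q) = top m p * top n q := by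
  rw [top, map_mul, coeff_mul_add_eq_of_natDegree_le (TW_iff_Th.1 hp) (TW_iff_Th.1 hq)]
  rfl

lemma top_eq_zero {m n : ℕ} {p : k[X][X]} (hp : TW m p) (hmn : m < n) : top n p = 0 :=
  coeff_eq_zero_of_natDegree_lt (lt_of_le_of_lt (TW_iff_Th.1 hp) hmn)

lemma TW_of_top_eq_zero {m : ℕ} {p : k[X][X]} (hp : TW (m + 1) p) (h0 : top (m + 1) p = 0) :
    TW m p := by
  rw [TW_iff_Th, natDegree_le_iff_coeff_eq_zero]
  intro N hN
  rcases Nat.lt_or_ge (m + 1) N with h | h
  · exact coeff_eq_zero_of_natDegree_lt (lt_of_le_of_lt (TW_iff_Th.1 hp) h)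
  · obtain rfl : N = m + 1 := by omega
    exact h0

lemma natDegree_top_le (m : ℕ) (p : k[X][X]) : (top m p).natDegree ≤ m := by
  rw [natDegree_le_iff_coeff_eq_zero]
  intro j hj
  rw [top, coeff_Th, if_neg (by omega)]

/-- Every polynomial of degree at most `m` is a top form. -/
lemma exists_lift {m : ℕ} {w : k[X]} (hw : w.natDegree ≤ m) :
    ∃ p : k[X][X], TW m p ∧ top m p = w := by
  classical
  let p : k[X][X] := ∑ j ∈ Finset.range (m + 1), monomial j (monomial (m - j) (w.coeff j))
  have h1 : ∀ j ∈ Finset.range (m + 1),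
      Th (monomial j (monomial (m - j) (w.coeff j))) = monomial m (monomial j (w.coeff j)) := by
    intro j hj
    have hj' : m - j + j = m := by
      have := Finset.mem_range.mp hj
      omega
    simp only [Th, coe_eval₂RingHom, eval₂_monomial, RingHom.comp_apply]
    conv_rhs => rw [← hj']
    rw [mul_pow, ← C_pow, ← C_mul_X_pow_eq_monomial, ← C_mul_X_pow_eq_monomial, C_mul, C_pow]
    ring
  have h2 : Th p = monomial m w := by
    rw [map_sum, Finset.sum_congr rfl h1, ← map_sum]
    congr 1
    conv_rhs => rw [w.as_sum_range_C_mul_X_pow' (Nat.lt_succ_of_le hw)]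
    exact Finset.sum_congr rfl fun j _ => (C_mul_X_pow_eq_monomial).symm
  refine ⟨p, ?_, ?_⟩
  · rw [TW_iff_Th, h2]
    exact natDegree_monomial_le _
  · rw [top, h2, coeff_monomial, if_pos rfl]

/-- Exact division. -/
lemma TW_of_mul {m n : ℕ} {p q : k[X][X]} (hp : TW m p) (hp0 : top m p ≠ 0)
    (h : TW (m + n) (p * q)) : TW n q := by
  by_cases hq : q = 0
  · rw [hq]; exact TW_zero n
  rw [TW_iff_Th] at hp h ⊢
  have hp1 : (Th p).natDegree = m := natDegree_eq_of_le_of_coeff_ne_zero hp hp0
  have hpn : Th p ≠ 0 := by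
    intro h0
    rw [top, h0, coeff_zero] at hp0
    exact hp0 rfl
  have hqn : Th q ≠ 0 := by
    rw [Ne, map_eq_zero_iff _ Th_injective]
    exact hq
  rw [map_mul, natDegree_mul hpn hqn, hp1] at h
  omega

/-- the product of a polynomial of exact total degree `m` with a non zero polynomial -/
lemma le_of_TW_mul {m d : ℕ} {p q : k[X][X]} (hp : TW m p) (hp0 : top m p ≠ 0) (hq : q ≠ 0)
    (h : TW d (p * q)) : m ≤ d := by
  rw [TW_iff_Th] at hp h
  have hp1 : (Th p).natDegree = m := natDegree_eq_of_le_of_coeff_ne_zero hp hp0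
  have hpn : Th p ≠ 0 := by
    intro h0
    rw [top, h0, coeff_zero] at hp0
    exact hp0 rfl
  have hqn : Th q ≠ 0 := by
    rw [Ne, map_eq_zero_iff _ Th_injective]
    exact hq
  rw [map_mul, natDegree_mul hpn hqn, hp1] at h
  omega

lemma exists_TW (p : k[X][X]) : ∃ m, TW m p := ⟨_, TW_iff_Th.2 le_rfl⟩

/-- the top form of a polynomial monic in `y` -/
lemma monic_top {g : k[X][X]} {n : ℕ} (hg : g.Monic) (hgn : g.natDegree = n) :
    (top n g).Monic ∧ (top n g).natDegree = n := by
  have h1 : (top n g).coeff n = 1 := by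
    rw [coeff_top, if_pos le_rfl, Nat.sub_self, ← hgn, hg.coeff_natDegree, coeff_one_zero]
  have h2 : (top n g).natDegree = n := by
    refine le_antisymm (natDegree_top_le n g) (le_natDegree_of_ne_zero ?_)
    rw [h1]
    exact one_ne_zero
  exact ⟨by rw [Monic, leadingCoeff, h2, h1], h2⟩

end Vale.Agent.P287.H684
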