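import Vale.Agent.P287.Theta.Saturate

/-!
The forms `c` of degree `k` with `c ^ 2 ∈ (g, f)`: a linear space, and its dimension modulo `f`.
-/

namespace Vale.Agent.P287.H684

open MvPolynomial Module Vale.Agent.P287 Vale.Agent.P287.Theta

/-- exponents of degree `t` -/
lemma card_exponents (d t : ℕ) :
    Nat.card {m : Fin (d + 1) →₀ ℕ | m.degree = t} = (t + d).choose d := by
  have h : {m : Fin (d + 1) →₀ ℕ | m.degree = t}
      = ((Finset.univ.finsuppAntidiag t : Finset (Fin (d + 1) →₀ ℕ)) : Set _) := by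
    ext m
    simp [Finset.mem_finsuppAntidiag, Finsupp.degree_eq_sum]
  rw [h, Nat.card_coe_set_eq, Set.ncard_coe_finset,
    Finset.card_finsuppAntidiag_nat_eq_choose, Finset.card_univ, Fintype.card_fin]
  have h1 : d + 1 + t - 1 = t + d := by omega
  rw [h1, Nat.choose_symm_add]

/-- `dim k[y_0, …, y_d]_t = C(t + d, d)` -/
theorem finrank_homogeneousSubmodule {k : Type*} [Field k] (d t : ℕ) :
    Module.finrank k (homogeneousSubmodule (Fin (d + 1)) k t) = (t + d).choose d := by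
  rw [homogeneousSubmodule_eq_finsupp_supported]
  have e := (AddMonoidAlgebra.supportedEquivFinsupp (S := k) (R := k)
    {m : Fin (d + 1) →₀ ℕ | m.degree = t}).finrank_eq
  refine e.trans ?_
  rw [← card_exponents d t]
  have hfin : Finite {m : Fin (d + 1) →₀ ℕ | m.degree = t} := by
    have h : {m : Fin (d + 1) →₀ ℕ | m.degree = t}
        = ((Finset.univ.finsuppAntidiag t : Finset (Fin (d + 1) →₀ ℕ)) : Set _) := by
      ext m
      simp [Finset.mem_finsuppAntidiag, Finsupp.degree_eq_sum]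
    rw [h]
    exact Finset.finite_toSet _
  have := Fintype.ofFinite {m : Fin (d + 1) →₀ ℕ | m.degree = t}
  rw [Module.finrank_finsupp_self, Nat.card_eq_fintype_card]

/-- the dimension of the space of ternary forms of degree `k` -/
theorem finrank_homog {F : Type*} [Field F] (k : ℕ) :
    finrank F (homogeneousSubmodule (Fin 3) F k) = (k + 2).choose 2 :=
  finrank_homogeneousSubmodule 2 k

instance finite_homog {F : Type*} [Field F] (k : ℕ) :
    Module.Finite F (homogeneousSubmodule (Fin 3) F k) := by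
  apply Module.finite_of_finrank_pos
  rw [finrank_homog]
  exact Nat.choose_pos (by omega)

/-- A smooth plane sextic `f` and a plane curve `g` of degree `n`. -/
structure CurvePair (f g : P3) (n : ℕ) : Prop where
  hf : f.IsHomogeneous 6
  pf : Prime f
  sf : SmoothP f
  hg : g.IsHomogeneous n
  hfg : ¬ f ∣ g

variable {f g : P3} {n : ℕ}

lemma CurvePair.mul_mem (H : CurvePair f g n) {k l : ℕ} (hk : n ≤ k + l) {c c' : P3}
    (hc : c.IsHomogeneous k) (hc' : c'.IsHomogeneous l) (h : c ^ 2 ∈ Ideal.span {g, f})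
    (h' : c' ^ 2 ∈ Ideal.span {g, f}) : c * c' ∈ Ideal.span {g, f} := by
  refine mul_mem_span H.hf (by norm_num) H.pf H.sf H.hg H.hfg (n := k + l - n) ?_ h h'
  have h1 := hc.mul hc'
  rwa [← Nat.add_sub_of_le hk] at h1

/-- The forms `c` of degree `k` with `c ^ 2 ∈ (g, f)`. -/
def CurvePair.J (H : CurvePair f g n) (k : ℕ) (hk : n ≤ 2 * k) : Submodule ℂ P3 where
  carrier := {c | c.IsHomogeneous k ∧ c ^ 2 ∈ Ideal.span {g, f}}
  zero_mem' := ⟨isHomogeneous_zero _ _ _, by simp⟩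
  add_mem' := by
    rintro a b ⟨ha, ha'⟩ ⟨hb, hb'⟩
    refine ⟨ha.add hb, ?_⟩
    have h1 := H.mul_mem (by omega) ha hb ha' hb'
    have e : (a + b) ^ 2 = a ^ 2 + 2 * (a * b) + b ^ 2 := by ring
    rw [e]
    exact add_mem (add_mem ha' (Ideal.mul_mem_left _ _ h1)) hb'
  smul_mem' := by
    rintro r a ⟨ha, ha'⟩
    refine ⟨(homogeneousSubmodule (Fin 3) ℂ k).smul_mem r ha, ?_⟩
    rw [smul_eq_C_mul, mul_pow]
    exact Ideal.mul_mem_left _ _ ha'

lemma CurvePair.mem_J (H : CurvePair f g n) {k : ℕ} {hk : n ≤ 2 * k} {c : P3} :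
    c ∈ H.J k hk ↔ c.IsHomogeneous k ∧ c ^ 2 ∈ Ideal.span {g, f} := Iff.rfl

lemma CurvePair.J_le (H : CurvePair f g n) {k : ℕ} {hk : n ≤ 2 * k} :
    H.J k hk ≤ homogeneousSubmodule (Fin 3) ℂ k := fun _ hc => hc.1

instance (H : CurvePair f g n) (k : ℕ) (hk : n ≤ 2 * k) : Module.Finite ℂ (H.J k hk) :=
  Submodule.finiteDimensional_of_le H.J_le

/-- multiples of `f` in degree `k` -/
lemma finrank_mult {f : P3} (hf : f.IsHomogeneous 6) (hf0 : f ≠ 0) (k : ℕ)
    {W : Submodule ℂ P3} (hW : ∀ c, c ∈ W ↔ c.IsHomogeneous k ∧ f ∣ c) :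
    finrank ℂ W = (k - 4).choose 2 := by
  by_cases hk : 6 ≤ k
  · obtain ⟨l, rfl⟩ := Nat.exists_eq_add_of_le hk
    have h1 : 6 + l - 4 = l + 2 := by omega
    rw [h1, ← finrank_homog (F := ℂ) l]
    refine LinearEquiv.finrank_eq (LinearEquiv.symm (LinearEquiv.ofBijective
      (LinearMap.codRestrict W ((LinearMap.mulLeft ℂ f).comp
        (homogeneousSubmodule (Fin 3) ℂ l).subtype) ?_) ⟨?_, ?_⟩))
    · rintro ⟨c, hc⟩
      rw [hW]
      exact ⟨hf.mul hc, dvd_mul_right _ _⟩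
    · rintro ⟨a, ha⟩ ⟨b, hb⟩ hab
      have h2 : f * a = f * b := congrArg Subtype.val hab
      exact Subtype.ext (mul_left_cancel₀ hf0 h2)
    · rintro ⟨c, hc⟩
      obtain ⟨h3, q, hq⟩ := (hW c).1 hc
      by_cases hc0 : c = 0
      · refine ⟨0, ?_⟩
        rw [map_zero]
        exact Subtype.ext hc0.symm
      obtain ⟨e, he, hqe⟩ := degree_le_of_mul hf (hq ▸ h3) (hq ▸ hc0)
      have h4 : e = l := by omega
      subst h4
      exact ⟨⟨q, hqe⟩, Subtype.ext hq.symm⟩
  · have h1 : (k - 4).choose 2 = 0 := Nat.choose_eq_zero_of_lt (by omega)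
    have h2 : W = ⊥ := by
      rw [Submodule.eq_bot_iff]
      intro c hc
      obtain ⟨h3, q, hq⟩ := (hW c).1 hc
      by_contra hc0
      obtain ⟨e, he, _⟩ := degree_le_of_mul hf (hq ▸ h3) (hq ▸ hc0)
      omega
    rw [h1, h2, finrank_bot]

/-- reduction modulo `f` -/
noncomputable abbrev modf (f : P3) : P3 →ₗ[ℂ] P3 ⧸ Ideal.span {f} :=
  (Ideal.Quotient.mkₐ ℂ (Ideal.span {f})).toLinearMap

lemma modf_eq_zero {f c : P3} : modf f c = 0 ↔ f ∣ c := by
  change Ideal.Quotient.mk (Ideal.span {f}) c = 0 ↔ _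
  rw [Ideal.Quotient.eq_zero_iff_mem, Ideal.mem_span_singleton]

/-- The dimension of `J_k` and of its image modulo `f`. -/
theorem CurvePair.finrank_J (H : CurvePair f g n) (k : ℕ) (hk : n ≤ 2 * k) :
    finrank ℂ (H.J k hk) = finrank ℂ ((H.J k hk).map (modf f)) + (k - 4).choose 2 := by
  have h1 := LinearMap.finrank_range_add_finrank_ker ((modf f).domRestrict (H.J k hk))
  rw [LinearMap.range_domRestrict] at h1
  rw [← h1]
  congr 1
  have h2 : (LinearMap.ker ((modf f).domRestrict (H.J k hk))).map (H.J k hk).subtype =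
      LinearMap.ker (modf f) ⊓ H.J k hk := by
    ext c
    simp only [Submodule.mem_map, LinearMap.mem_ker, LinearMap.domRestrict_apply,
      Submodule.subtype_apply, Subtype.exists, exists_and_right, exists_eq_right,
      Submodule.mem_inf]
    exact ⟨fun ⟨a, b⟩ => ⟨b, a⟩, fun ⟨a, b⟩ => ⟨b, a⟩⟩
  rw [← Submodule.finrank_map_subtype_eq, h2]
  refine finrank_mult H.hf H.pf.ne_zero k fun c => ?_
  rw [Submodule.mem_inf, LinearMap.mem_ker, modf_eq_zero, H.mem_J]
  constructor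
  · rintro ⟨h3, h4, _⟩
    exact ⟨h4, h3⟩
  · rintro ⟨h3, h4⟩
    refine ⟨h4, h3, ?_⟩
    obtain ⟨q, rfl⟩ := h4
    rw [mul_pow, pow_two, mul_assoc]
    exact Ideal.mul_mem_right _ _ (Ideal.subset_span (by simp))

/-- `h^0(θ) = 0` version: no section modulo `f`. -/
theorem CurvePair.finrank_map_eq_zero (H : CurvePair f g n) {k : ℕ} (hk : n ≤ 2 * k)
    (h : ∀ c : P3, c.IsHomogeneous k → c ^ 2 ∈ Ideal.span {g, f} → f ∣ c) :
    finrank ℂ ((H.J k hk).map (modf f)) = 0 := by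
  have h1 : (H.J k hk).map (modf f) = ⊥ := by
    rw [Submodule.eq_bot_iff]
    rintro _ ⟨c, hc, rfl⟩
    exact modf_eq_zero.2 (h c hc.1 hc.2)
  rw [h1, finrank_bot]

lemma parity_aux {m : ℕ} (hm : 2 ≤ m) :
    Even (1 + 3 * (m - 2 + 2).choose 2 + (m + 2 - 4).choose 2) := by
  obtain ⟨l, rfl⟩ := Nat.exists_eq_add_of_le hm
  have e1 : 2 + l - 2 + 2 = l + 2 := by omega
  have e2 : 2 + l + 2 - 4 = l := by omega
  rw [e1, e2]
  have h1 : (l + 2).choose 2 = l.choose 2 + (2 * l + 1) := by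
    rw [Nat.choose_succ_succ' (l + 1) 1, Nat.choose_succ_succ' l 1, Nat.choose_one_right,
      Nat.choose_one_right]
    ring
  rw [h1]
  exact ⟨2 * l.choose 2 + 3 * l + 2, by ring⟩

/-- **[D1c]** the parity of `dim X_{m-1} = dim Y + dim J_{m+2}`. -/
theorem CurvePair.parity (H : CurvePair f g n) {m : ℕ} (hm : 2 ≤ m) (hk : n ≤ 2 * (m + 2))
    {y : ℕ} (hy : y = 1 + 3 * finrank ℂ (homogeneousSubmodule (Fin 3) ℂ (m - 2))) :
    Even (y + finrank ℂ (H.J (m + 2) hk)) ↔
      Even (finrank ℂ ((H.J (m + 2) hk).map (modf f))) := by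
  rw [hy, H.finrank_J, finrank_homog]
  have h1 := parity_aux hm
  set a := finrank ℂ ((H.J (m + 2) hk).map (modf f))
  have e : 1 + 3 * (m - 2 + 2).choose 2 + (a + (m + 2 - 4).choose 2) =
      a + (1 + 3 * (m - 2 + 2).choose 2 + (m + 2 - 4).choose 2) := by ring
  rw [e, Nat.even_add]
  exact ⟨fun h => h.2 h1, fun h => ⟨fun _ => h1, fun _ => h⟩⟩

end Vale.Agent.P287.H684
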