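import Vale.Agent.P287.Odd.Spec
import Vale.Agent.P287.H946.Base

/-!
Extension of the base field: the hypotheses of the odd theta theorem.
-/

namespace Vale.Agent.P287.H684

open Polynomial Module Matrix Vale.Agent.P287.Odd Vale.Agent.P287.H946

variable {k F : Type} [Field k] [Field F] [Algebra k F]

lemma Wd_bc {d : ℕ} {P : k[X][X]} : Wd d (bc k F P) ↔ Wd d P := by
  constructor
  · intro h i j hij
    have h1 := h i j hij
    rw [coeff_bc] at h1
    exact (map_eq_zero_iff _ (algebraMap k F).injective).1 h1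
  · intro h i j hij
    rw [coeff_bc, h i j hij, map_zero]

lemma eq_zero_of_dual {c : F} (h : ∀ φ : F →ₗ[k] k, φ c = 0) : c = 0 := by
  rw [← Module.forall_dual_apply_eq_zero_iff k]
  exact h

lemma Wd_iff_cf {d : ℕ} {x : F[X][X]} : Wd d x ↔ ∀ φ : F →ₗ[k] k, Wd d (cf φ x) := by
  constructor
  · intro h φ i j hij
    rw [coeff_cf, h i j hij, map_zero]
  · intro h i j hij
    refine eq_zero_of_dual (k := k) fun φ => ?_
    rw [← coeff_cf]
    exact h φ i j hij

lemma coeff_iff_cf {x : F[X][X]} {j : ℕ} : x.coeff j = 0 ↔ ∀ φ : F →ₗ[k] k, (cf φ x).coeff j = 0 := by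
  constructor
  · intro h φ
    ext i
    rw [coeff_cf, h, coeff_zero, map_zero, coeff_zero]
  · intro h
    ext i
    rw [coeff_zero]
    refine eq_zero_of_dual (k := k) fun φ => ?_
    rw [← coeff_cf, h φ, coeff_zero]

lemma eq_of_cf {x y : F[X][X]} (h : ∀ φ : F →ₗ[k] k, cf φ x = cf φ y) : x = y := by
  rw [← sub_eq_zero]
  ext j i
  rw [coeff_zero, coeff_zero]
  refine eq_zero_of_dual (k := k) fun φ => ?_
  rw [← coeff_cf, map_sub, h φ, sub_self, coeff_zero, coeff_zero]

lemma bc_monic {g : k[X][X]} (hg : g.Monic) : (bc k F g).Monic := by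
  rw [bc, coe_mapRingHom]
  exact hg.map _

lemma natDegree_bc (g : k[X][X]) : (bc k F g).natDegree = g.natDegree := by
  rw [bc, coe_mapRingHom]
  refine natDegree_map_eq_of_injective ?_ g
  rw [coe_mapRingHom]
  exact Polynomial.map_injective _ (algebraMap k F).injective

lemma cf_modByMonic {g : k[X][X]} (hg : g.Monic) (φ : F →ₗ[k] k) (x : F[X][X]) :
    cf φ (x %ₘ bc k F g) = cf φ x %ₘ g := by
  have h1 := modByMonic_add_div x (bc k F g)
  have h2 := congrArg (cf φ) h1
  rw [map_add, cf_bc_mul] at h2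
  have h3 : (cf φ (x %ₘ bc k F g)).degree < g.degree := by
    have h4 : (x %ₘ bc k F g).degree < (bc k F g).degree := degree_modByMonic_lt x (bc_monic hg)
    rw [degree_eq_natDegree (bc_monic hg).ne_zero, natDegree_bc, degree_lt_iff_coeff_zero] at h4
    rw [degree_eq_natDegree hg.ne_zero, degree_lt_iff_coeff_zero]
    exact fun m hm => coeff_iff_cf.1 (h4 m hm) φ
  exact ((div_modByMonic_unique _ _ hg ⟨h2, h3⟩).2).symm

/-- Regularity at infinity is stable under extension of the base field. -/
theorem infUnit_bc {n d : ℕ} {g z : k[X][X]} (hg : g.Monic) (h : InfUnit n g d z) :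
    InfUnit n (bc k F g) d (bc k F z) := by
  refine ⟨Wd_bc.2 h.1, fun e x hx hW => ?_⟩
  rw [Wd_iff_cf (k := k)]
  intro φ
  refine h.2 e _ (fun j hj => coeff_iff_cf.1 (hx j hj) φ) ?_
  rw [← cf_bc_mul, ← cf_modByMonic hg]
  exact Wd_iff_cf.1 hW φ

lemma exists_dual_one (k F : Type) [Field k] [Field F] [Algebra k F] :
    ∃ φ : F →ₗ[k] k, φ 1 = 1 := by
  obtain ⟨φ, hφ⟩ := LinearMap.exists_leftInverse_of_injective (Algebra.linearMap k F)
    (LinearMap.ker_eq_bot.2 (algebraMap k F).injective)
  refine ⟨φ, ?_⟩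
  have := LinearMap.congr_fun hφ 1
  simpa using this

lemma cf_bc (φ : F →ₗ[k] k) (p : k[X][X]) : cf φ (bc k F p) = C (C (φ 1)) * p := by
  have := cf_smul_bc φ 1 p
  rwa [C_1, C_1, one_mul] at this

lemma bc_dvd_bc {g f : k[X][X]} : bc k F g ∣ bc k F f ↔ g ∣ f := by
  refine ⟨fun h => ?_, fun h => _root_.map_dvd _ h⟩
  obtain ⟨φ, hφ⟩ := exists_dual_one k F
  have := (bc_dvd_iff g _).1 h φ
  rwa [cf_bc, hφ, C_1, C_1, one_mul] at this

/-- Extension of the base field of a curve. -/
theorem curve_bc {m : ℕ} {g f : k[X][X]} (h : Curve m g f) (hp : Prime (bc k F g)) :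
    Curve m (bc k F g) (bc k F f) where
  monic := bc_monic h.monic
  deg := by rw [natDegree_bc, h.deg]
  wd := Wd_bc.2 h.wd
  prime := hp
  ndvd := fun h1 => h.ndvd (bc_dvd_bc.1 h1)
  inf := infUnit_bc h.monic h.inf
  line := by
    obtain ⟨α, β, γ, h1⟩ := h.line
    refine ⟨bc k F α, bc k F β, bc k F γ, ?_⟩
    have h2 := congrArg (bc k F) h1
    rw [map_add, map_add, map_mul, map_mul, map_mul, map_one] at h2
    have h3 : bc k F (C X) = C X := by simp [bc]
    rwa [h3] at h2

lemma adjugate_map_bc (A : Matrix (Fin 3) (Fin 3) k[X][X]) :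
    (A.map (bc k F)).adjugate = A.adjugate.map (bc k F) := by
  have := RingHom.map_adjugate (bc k F) A
  simp only [RingHom.mapMatrix_apply] at this
  exact this.symm

/-- Extension of the base field of a matrix of quadrics. -/
theorem quadrics_bc {g f : k[X][X]} {A : Matrix (Fin 3) (Fin 3) k[X][X]} (h : Quadrics g f A) :
    Quadrics (bc k F g) (bc k F f) (A.map (bc k F)) where
  symm := by
    rw [Matrix.IsSymm, ← Matrix.transpose_map, h.symm.eq]
  wd := fun i j => Wd_bc.2 (h.wd i j)
  det := by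
    have := RingHom.map_det (bc k F) A
    simp only [RingHom.mapMatrix_apply] at this
    rw [← this, h.det, map_neg]
  rank := by
    have h1 := congrArg (Ideal.map (bc k F)) h.rank
    rw [Ideal.map_sup, Ideal.map_span, Ideal.map_span, Ideal.map_top] at h1
    rw [← h1, adjugate_map_bc]
    congr 1
    · congr 1
      ext x
      simp only [Set.mem_range, Set.mem_image, Matrix.map_apply]
      constructor
      · rintro ⟨ij, rfl⟩
        exact ⟨_, ⟨ij, rfl⟩, rfl⟩
      · rintro ⟨_, ⟨ij, rfl⟩, rfl⟩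
        exact ⟨ij, rfl⟩
    · rw [Set.image_pair]

/-- Membership in the extended ideal, in coordinates. -/
lemma mem_map_bc {J : Ideal k[X][X]} {x : F[X][X]} :
    x ∈ J.map (bc k F) ↔ ∀ φ : F →ₗ[k] k, cf φ x ∈ J := by
  constructor
  · intro hx
    refine Submodule.span_induction (p := fun y _ => ∀ φ : F →ₗ[k] k, cf φ y ∈ J) ?_ ?_ ?_ ?_ hx
    · rintro _ ⟨p, hp, rfl⟩ φ
      rw [cf_bc]
      exact J.mul_mem_left _ hp
    · intro φ
      rw [map_zero]
      exact J.zero_mem
    · intro a b _ _ ha hb φ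
      rw [map_add]
      exact J.add_mem (ha φ) (hb φ)
    · intro a b _ hb φ
      obtain ⟨s, hs⟩ := exists_expand (Basis.ofVectorSpace k F) b
      rw [hs, smul_eq_mul, Finset.mul_sum, map_sum]
      refine sum_mem fun i _ => ?_
      have e : a * (C (C ((Basis.ofVectorSpace k F) i)) *
          bc k F (cf ((Basis.ofVectorSpace k F).coord i) b)) =
          bc k F (cf ((Basis.ofVectorSpace k F).coord i) b) *
            (a * C (C ((Basis.ofVectorSpace k F) i))) := by ring
      rw [e, cf_bc_mul]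
      exact J.mul_mem_right _ (hb _)
  · intro h
    obtain ⟨s, hs⟩ := exists_expand (Basis.ofVectorSpace k F) x
    rw [hs]
    exact sum_mem fun i _ => Ideal.mul_mem_left _ _ (Ideal.mem_map_of_mem _ (h _))

lemma smul_eq_CC (a : F) (x : F[X][X]) : a • x = C (C a) * x := by
  ext j i
  simp [coeff_smul, coeff_C_mul]

/-- Extension of the base field of a half ideal. -/
theorem half_bc {m : ℕ} {g f : k[X][X]} {J : Ideal k[X][X]} (h : Half m g f J) :
    Half m (bc k F g) (bc k F f) (J.map (bc k F)) := by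
  have hfin := h.fin
  set r := finrank k (k[X][X] ⧸ J) with hr
  let v : Basis (Fin r) k (k[X][X] ⧸ J) := finBasisOfFinrankEq k _ hr.symm
  choose p hp using fun i => Ideal.Quotient.mk_surjective (v i)
  let u : Fin r → F[X][X] ⧸ J.map (bc k F) := fun i => Ideal.Quotient.mk _ (bc k F (p i))
  have hmk : ∀ (a : F) (x : F[X][X]), Ideal.Quotient.mk (J.map (bc k F)) (C (C a) * x) =
      a • Ideal.Quotient.mk (J.map (bc k F)) x := by
    intro a x
    rw [← smul_eq_CC]
    rfl
  have hu : ⊤ ≤ Submodule.span F (Set.range u) := by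
    intro y _
    obtain ⟨x, rfl⟩ := Ideal.Quotient.mk_surjective y
    have key : ∀ y : k[X][X], Ideal.Quotient.mk (J.map (bc k F)) (bc k F y) ∈
        Submodule.span F (Set.range u) := by
      intro y
      have h1 := v.sum_repr (Ideal.Quotient.mk J y)
      have h2 : y - ∑ i, C (C (v.repr (Ideal.Quotient.mk J y) i)) * p i ∈ J := by
        rw [← Ideal.Quotient.eq_zero_iff_mem, map_sub, map_sum, sub_eq_zero, ← h1]
        refine Finset.sum_congr rfl fun i _ => ?_
        rw [h1, ← hp i]
        have : C (C (v.repr (Ideal.Quotient.mk J y) i)) * p i =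
            (v.repr (Ideal.Quotient.mk J y) i) • p i := by
          ext j i
          simp [coeff_smul, coeff_C_mul]
        rw [this]
        rfl
      have h3 := Ideal.mem_map_of_mem (bc k F) h2
      rw [← Ideal.Quotient.eq_zero_iff_mem, map_sub, map_sub, map_sum, map_sum, sub_eq_zero] at h3
      rw [h3]
      refine sum_mem fun i _ => ?_
      have h4 : bc k F (C (C (v.repr (Ideal.Quotient.mk J y) i)) * p i) =
          C (C (algebraMap k F (v.repr (Ideal.Quotient.mk J y) i))) * bc k F (p i) := by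
        rw [map_mul]
        congr 1
        simp [bc]
      rw [h4, hmk]
      exact Submodule.smul_mem _ _ (Submodule.subset_span ⟨i, rfl⟩)
    obtain ⟨s, hs⟩ := exists_expand (Basis.ofVectorSpace k F) x
    rw [hs, map_sum]
    refine sum_mem fun i _ => ?_
    rw [hmk]
    exact Submodule.smul_mem _ _ (key _)
  refine ⟨Ideal.mem_map_of_mem _ h.f_mem, Ideal.mem_map_of_mem _ h.g_mem, ?_, ?_, ?_⟩
  · intro a ha b hb
    have h1 := Ideal.mul_mem_mul ha hb
    rw [← Ideal.map_mul] at h1
    have h2 : J * J ≤ Ideal.span {f, g} := Ideal.mul_le.2 h.mul_mem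
    have h3 := Ideal.map_mono (f := bc k F) h2 h1
    rwa [Ideal.map_span, Set.image_pair] at h3
  · exact Module.finite_def.2 ((Submodule.fg_def).2 ⟨_, Set.finite_range u, top_le_iff.1 hu⟩)
  · have h1 : finrank F (F[X][X] ⧸ J.map (bc k F)) ≤ r := by
      rw [← finrank_top, ← top_le_iff.1 hu]
      refine (finrank_range_le_card u).trans ?_
      rw [Fintype.card_fin]
    exact h1.trans h.dim

end Vale.Agent.P287.H684
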