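import Vale.Agent.P287.H684.TopG
import Vale.Agent.P287.H684.Bk

/-!
A polynomial whose top form is prime to the top form of `g` is regular at infinity in
`k[x][y]/(g)`.
-/

namespace Vale.Agent.P287.H684

open Polynomial Module

variable {k : Type*} [Field k] {g : k[X][X]} {n : ℕ}

/-- one step: the degree of `b` can be lowered -/
lemma regular_step (hg : g.Monic) (hgn : g.natDegree = n) (hgW : TW n g) {e : ℕ} {h : k[X][X]}
    (hh : TW e h) (hcop : IsCoprime (top n g) (top e h)) {m : ℕ} {b c : k[X][X]}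
    (hb : TW (m + 1) b) (hc : TW (m + e) c) (hd : g ∣ h * b - c) :
    ∃ b', TW m b' ∧ g ∣ b - b' := by
  obtain ⟨hgm, hgd⟩ := monic_top hg hgn
  have hg0 : top n g ≠ 0 := hgm.ne_zero
  obtain ⟨q, hq⟩ := hd
  have h1 : TW (m + 1 + e) (g * q) := by
    rw [← hq]
    refine TW.sub ?_ (hc.mono (by omega))
    have := hh.mul hb
    rwa [add_comm] at this
  have h2 : top n g ∣ top (m + 1) b := by
    by_cases hq0 : q = 0
    · rw [hq0, mul_zero, sub_eq_zero] at hq
      have h3 : top (e + (m + 1)) (h * b) = 0 := by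
        rw [hq]
        exact top_eq_zero hc (by omega)
      rw [top_mul hh hb] at h3
      have h4 : top n g ∣ top e h * top (m + 1) b := by rw [h3]; exact dvd_zero _
      exact hcop.dvd_of_dvd_mul_left h4
    · have h3 := le_of_TW_mul hgW hg0 hq0 h1
      obtain ⟨l, hl⟩ := Nat.exists_eq_add_of_le h3
      rw [hl] at h1
      have h4 : TW l q := TW_of_mul hgW hg0 h1
      have h5 : top (e + (m + 1)) (h * b) = top (n + l) (g * q) := by
        rw [← hq, ← hl, top_sub, top_eq_zero hc (by omega : m + e < m + 1 + e), sub_zero]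
        congr 1
        omega
      rw [top_mul hh hb, top_mul hgW h4] at h5
      have h6 : top n g ∣ top e h * top (m + 1) b := ⟨_, h5⟩
      exact hcop.dvd_of_dvd_mul_left h6
  obtain ⟨w, hw⟩ := h2
  by_cases hw0 : w = 0
  · rw [hw0, mul_zero] at hw
    exact ⟨b, TW_of_top_eq_zero hb hw, by rw [sub_self]; exact dvd_zero _⟩
  · have h3 : n + w.natDegree ≤ m + 1 := by
      have h4 := natDegree_top_le (m + 1) b
      rwa [hw, natDegree_mul hg0 hw0, hgd] at h4
    obtain ⟨l, hl⟩ := Nat.exists_eq_add_of_le (show n ≤ m + 1 by omega)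
    obtain ⟨W, hW, hWt⟩ := exists_lift (show w.natDegree ≤ l by omega)
    refine ⟨b - g * W, TW_of_top_eq_zero ?_ ?_, W, by ring⟩
    · refine hb.sub ?_
      rw [hl]
      exact hgW.mul hW
    · rw [top_sub, hw]
      conv_lhs => rw [hl]
      rw [top_mul hgW hW, hWt, sub_self]

/-- `h` is regular at infinity. -/
theorem regular (hg : g.Monic) (hgn : g.natDegree = n) (hgW : TW n g) {e : ℕ} {h : k[X][X]}
    (hh : TW e h) (hcop : IsCoprime (top n g) (top e h)) {d : ℕ} {b c : k[X][X]}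
    (hc : TW (d + e) c) (hd : g ∣ h * b - c) : ∃ b', TW d b' ∧ g ∣ b - b' := by
  obtain ⟨m, hm⟩ := exists_TW b
  have key : ∀ l : ℕ, ∀ b : k[X][X], TW (d + l) b → g ∣ h * b - c →
      ∃ b', TW d b' ∧ g ∣ b - b' := by
    intro l
    induction l with
    | zero => exact fun b hb _ => ⟨b, hb, by rw [sub_self]; exact dvd_zero _⟩
    | succ l ih =>
      intro b hb hbd
      obtain ⟨b₁, hb₁, h1⟩ := regular_step hg hgn hgW hh hcop (m := d + l) (b := b) (c := c)
        hb (hc.mono (by omega)) hbd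
      obtain ⟨b₂, hb₂, h2⟩ := ih b₁ hb₁ (by
        have := dvd_sub hbd (h1.mul_left h)
        refine this.trans (dvd_of_eq ?_)
        ring)
      exact ⟨b₂, hb₂, by
        have := dvd_add h1 h2
        refine this.trans (dvd_of_eq ?_)
        ring⟩
  exact key m b (hm.mono (by omega)) hd

section Ring

variable {B : Type*} [CommRing B] [Algebra k B] (π : k[X][X] →ₐ[k] B)

/-- `h` is regular at infinity, in terms of the filtration `B_m`. -/
theorem regular_Bk (hπ : ∀ p, π p = 0 ↔ g ∣ p) (hsurj : Function.Surjective π) (hg : g.Monic)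
    (hgn : g.natDegree = n) (hgW : TW n g) {e : ℕ} {h : k[X][X]} (hh : TW e h)
    (hcop : IsCoprime (top n g) (top e h)) {d : ℕ} {b : B} :
    π h * b ∈ Bk π.toLinearMap (d + e) ↔ b ∈ Bk π.toLinearMap d := by
  constructor
  · rintro ⟨c, hc, hcb⟩
    obtain ⟨b, rfl⟩ := hsurj b
    have h1 : g ∣ h * b - c := by
      rw [← hπ, map_sub, map_mul]
      exact sub_eq_zero.2 hcb.symm
    obtain ⟨b', hb', h2⟩ := regular hg hgn hgW hh hcop hc h1
    refine ⟨b', hb', ?_⟩
    rw [← hπ, map_sub] at h2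
    exact (sub_eq_zero.1 h2).symm
  · rintro ⟨b, hb, rfl⟩
    exact ⟨h * b, by rw [add_comm]; exact hh.mul hb, map_mul π h b⟩

/-- products in the filtration -/
theorem mul_mem_Bk {d e : ℕ} {a b : B} (ha : a ∈ Bk π.toLinearMap d)
    (hb : b ∈ Bk π.toLinearMap e) : a * b ∈ Bk π.toLinearMap (d + e) := by
  obtain ⟨a, ha, rfl⟩ := ha
  obtain ⟨b, hb, rfl⟩ := hb
  exact ⟨a * b, TW.mul ha hb, map_mul π a b⟩

theorem one_mem_Bk (m : ℕ) : (1 : B) ∈ Bk π.toLinearMap m :=
  ⟨1, TW_one m, map_one π⟩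

theorem exists_mem_Bk (hsurj : Function.Surjective π) (b : B) :
    ∃ m, b ∈ Bk π.toLinearMap m := by
  obtain ⟨p, rfl⟩ := hsurj b
  obtain ⟨m, hm⟩ := exists_TW p
  exact ⟨m, p, hm, rfl⟩

/-- `dim B_{m+1} = dim B_m + n` for `m ≥ n - 1`. -/
theorem finrank_Bk_succ {π : k[X][X] →ₗ[k] B} (hπ : ∀ p, π p = 0 ↔ g ∣ p) (hg : g.Monic)
    (hgn : g.natDegree = n) (hgW : TW n g) {m : ℕ} (h : n ≤ m + 1) :
    finrank k (Bk π (m + 1)) = finrank k (Bk π m) + n := by
  have h1 := two_mul_finrank_Bk hπ hg hgn hgW h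
  have h2 := two_mul_finrank_Bk hπ hg hgn hgW (show n ≤ m + 1 + 1 by omega)
  nlinarith

end Ring

end Vale.Agent.P287.H684
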