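import Vale.Agent.P287.Odd.Spec
import Vale.Agent.P287.H684.Reg

/-!
`InfUnit` from coprime top forms.
-/

namespace Vale.Agent.P287.H684

open Polynomial Module Vale.Agent.P287.Odd

variable {k : Type} [Field k]

lemma Wd_iff_TW {d : ℕ} {P : k[X][X]} : Wd d P ↔ TW d P := TW_iff.symm

/-- A reduced representative. -/
lemma modByMonic_eq_self_of_coeff {g h : k[X][X]} {n : ℕ} (hg : g.Monic) (hgn : g.natDegree = n)
    (hh : ∀ j, n ≤ j → h.coeff j = 0) : h %ₘ g = h := by
  rw [modByMonic_eq_self_iff hg]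
  by_cases h0 : h = 0
  · rw [h0, degree_zero, bot_lt_iff_ne_bot, Ne, degree_eq_bot]
    exact hg.ne_zero
  · refine degree_lt_degree ?_
    rw [hgn]
    by_contra hcon
    exact h0 (leadingCoeff_eq_zero.1 (hh _ (not_lt.1 hcon)))

/-- A polynomial whose top form is prime to the top form of `g`. -/
theorem infUnit_of_coprime {g z : k[X][X]} {n d : ℕ} (hg : g.Monic) (hgn : g.natDegree = n)
    (hgW : Wd n g) (hz : Wd d z) (hcop : IsCoprime (top n g) (top d z)) : InfUnit n g d z := by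
  rw [Wd_iff_TW] at hgW
  refine ⟨hz, fun e h hh hW => ?_⟩
  rw [Wd_iff_TW] at hW hz ⊢
  obtain ⟨b', hb', hd⟩ := regular hg hgn hgW hz hcop (c := (z * h) %ₘ g) (b := h) hW (by
    have h1 := modByMonic_add_div (z * h) g
    exact ⟨(z * h) /ₘ g, by linear_combination -h1⟩)
  have h1 : h = b' %ₘ g := by
    have h2 := modByMonic_eq_self_of_coeff hg hgn hh
    have h3 : (h - b') %ₘ g = 0 := (modByMonic_eq_zero_iff_dvd hg).2 hd
    rw [sub_modByMonic, h2, sub_eq_zero] at h3
    exact h3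
  rw [h1]
  exact TW.modByMonic hg hgn hgW hb'

end Vale.Agent.P287.H684
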