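import Vale.Agent.P287.H684.BC1

/-!
Extension of the base field: the dimension of the graded pieces of the module `X`.
-/

namespace Vale.Agent.P287.H684

open Polynomial Module Matrix Vale.Agent.P287.Odd Vale.Agent.P287.H946

variable {k F : Type} [Field k] [Field F] [Algebra k F]

/-- A descent criterion. -/
lemma finrank_eq_of_descent {V W : Type*} [AddCommGroup V] [Module k V] [AddCommGroup W]
    [Module F W] (β : V →+ W) (hβ : ∀ (c : k) v, β (c • v) = algebraMap k F c • β v)
    (ψ : (F →ₗ[k] k) → W →+ V) (hψ : ∀ φ (a : F) v, ψ φ (a • β v) = φ a • v)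
    (hex : ∀ w : W, w ∈ Submodule.span F (Set.range β)) : finrank F W = finrank k V := by
  classical
  let v := Basis.ofVectorSpace k V
  have hli : LinearIndependent F fun i => β (v i) := by
    rw [linearIndependent_iff']
    intro s a h i hi
    refine (Module.forall_dual_apply_eq_zero_iff k _).1 fun φ => ?_
    have h1 : ∑ i ∈ s, φ (a i) • v i = 0 := by
      have h2 := congrArg (ψ φ) h
      rw [map_sum, map_zero] at h2
      rw [← h2]
      exact Finset.sum_congr rfl fun i _ => (hψ φ (a i) (v i)).symm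
    exact linearIndependent_iff'.1 v.linearIndependent s _ h1 i hi
  have hsp : ⊤ ≤ Submodule.span F (Set.range fun i => β (v i)) := by
    intro w _
    refine Submodule.span_le.2 ?_ (hex w)
    rintro _ ⟨y, rfl⟩
    have h1 := v.linearCombination_repr y
    rw [Finsupp.linearCombination_apply, Finsupp.sum] at h1
    rw [← h1, map_sum]
    refine sum_mem fun i _ => ?_
    rw [hβ]
    exact Submodule.smul_mem _ _ (Submodule.subset_span ⟨i, rfl⟩)
  rw [Module.finrank_eq_nat_card_basis (Basis.mk hli hsp), Module.finrank_eq_nat_card_basis v]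

/-- expansion with a larger index set -/
lemma expand_of_subset {κ : Type*} (b : Basis κ k F) (x : F[X][X]) {s t : Finset κ}
    (hs : x = ∑ i ∈ s, C (C (b i)) * bc k F (cf (b.coord i) x)) (hst : s ⊆ t) :
    x = ∑ i ∈ t, C (C (b i)) * bc k F (cf (b.coord i) x) := by
  classical
  have h1 : ∀ j, j ∉ s → cf (b.coord j) x = 0 := by
    intro j hj
    have h2 := congrArg (cf (b.coord j)) hs
    rw [map_sum] at h2
    rw [h2]
    refine Finset.sum_eq_zero fun i hi => ?_
    rw [cf_smul_bc]
    have h3 : b.coord j (b i) = 0 := by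
      rw [Basis.coord_apply, b.repr_self, Finsupp.single_apply, if_neg]
      rintro rfl
      exact hj hi
    rw [h3, C_0, C_0, zero_mul]
  conv_lhs => rw [hs]
  refine Finset.sum_subset hst fun j _ hj => ?_
  rw [h1 j hj, map_zero, mul_zero]

/-- common expansion of the coordinates of a vector -/
lemma exists_expand_vec {κ : Type*} (b : Basis κ k F) (w : Fin 4 → F[X][X]) :
    ∃ s : Finset κ, ∀ l, w l = ∑ i ∈ s, C (C (b i)) * bc k F (cf (b.coord i) (w l)) := by
  classical
  choose s hs using fun l => exists_expand b (w l)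
  exact ⟨Finset.univ.biUnion s, fun l => expand_of_subset b (w l) (hs l)
    (Finset.subset_biUnion_of_mem s (Finset.mem_univ l))⟩

/-- coordinates of the product with an extended matrix -/
lemma cf_mulVec (φ : F →ₗ[k] k) (N : Matrix (Fin 3) (Fin 3) k[X][X]) (w : Fin 3 → F[X][X])
    (i : Fin 3) : cf φ ((N.map (bc k F) *ᵥ w) i) = (N *ᵥ fun j => cf φ (w j)) i := by
  simp only [mulVec, dotProduct, Matrix.map_apply, map_sum, cf_bc_mul]

lemma bc_mulVec (N : Matrix (Fin 3) (Fin 3) k[X][X]) (w : Fin 3 → k[X][X]) (i : Fin 3) :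
    (N.map (bc k F) *ᵥ fun j => bc k F (w j)) i = bc k F ((N *ᵥ w) i) := by
  simp only [mulVec, dotProduct, Matrix.map_apply, map_sum, map_mul]

variable {A : Matrix (Fin 3) (Fin 3) k[X][X]} {J : Ideal k[X][X]} {n d : ℕ}

lemma mem_En_cf {d : ℕ} {x : F[X][X]} : x ∈ En n d ↔ ∀ φ : F →ₗ[k] k, cf φ x ∈ En n d := by
  constructor
  · rintro ⟨h1, h2⟩ φ
    exact ⟨Wd_iff_cf.1 h1 φ, fun j hj => coeff_iff_cf.1 (h2 j hj) φ⟩
  · intro h
    exact ⟨Wd_iff_cf.2 fun φ => (h φ).1, fun j hj => coeff_iff_cf.2 fun φ => (h φ).2 j hj⟩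

lemma mem_Yd {R : Submodule k[X][X] (Fin 4 → k[X][X])} {v : Fin 4 → k[X][X]} :
    v ∈ Yd n d R ↔ v ∈ R ∧ ∀ i, v i ∈ En n (d + wt4 i) := by
  rw [Yd, Submodule.mem_inf, Submodule.mem_pi, Submodule.restrictScalars_mem]
  simp only [Set.mem_univ, true_implies]

lemma mem_modX {R : Type} [CommRing R] {A : Matrix (Fin 3) (Fin 3) R} {J : Ideal R}
    {v : Fin 4 → R} : v ∈ modX A J ↔ v 0 ∈ J ∧ ∀ i, (A.adjugate *ᵥ av v) i ∈ J := Iff.rfl

/-- the graded piece of the extended module, in coordinates -/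
lemma mem_Yd_cf {w : Fin 4 → F[X][X]} :
    w ∈ Yd n d (modX (A.map (bc k F)) (J.map (bc k F))) ↔
      ∀ φ : F →ₗ[k] k, (fun i => cf φ (w i)) ∈ Yd n d (modX A J) := by
  have h1 : ∀ φ : F →ₗ[k] k, ∀ i, cf φ (((A.map (bc k F)).adjugate *ᵥ av w) i) =
      (A.adjugate *ᵥ av (fun i => cf φ (w i))) i := by
    intro φ i
    rw [adjugate_map_bc, cf_mulVec]
    rfl
  simp only [mem_Yd, mem_modX, mem_map_bc]
  constructor
  · rintro ⟨⟨h2, h3⟩, h4⟩ φ
    refine ⟨⟨h2 φ, fun i => ?_⟩, fun i => mem_En_cf.1 (h4 i) φ⟩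
    rw [← h1]
    exact h3 i φ
  · intro h
    refine ⟨⟨fun φ => (h φ).1.1, fun i φ => ?_⟩, fun i => mem_En_cf.2 fun φ => (h φ).2 i⟩
    rw [h1]
    exact (h φ).1.2 i

lemma bc_smul (c : k) (p : k[X][X]) : bc k F (c • p) = algebraMap k F c • bc k F p := by
  ext j l
  rw [coeff_bc, coeff_smul, coeff_smul, coeff_smul, coeff_smul, coeff_bc, smul_eq_mul,
    smul_eq_mul, map_mul]

lemma cf_bc' (φ : F →ₗ[k] k) (p : k[X][X]) : cf φ (bc k F p) = φ 1 • p := by
  rw [cf_bc]
  ext j l
  simp [coeff_smul, coeff_C_mul]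

lemma cf_smul_bc' (φ : F →ₗ[k] k) (a : F) (p : k[X][X]) :
    cf φ (a • bc k F p) = φ a • p := by
  rw [smul_eq_CC, cf_smul_bc]
  ext j l
  simp [coeff_smul, coeff_C_mul]

/-- The base change map on graded pieces. -/
noncomputable def bcY (A : Matrix (Fin 3) (Fin 3) k[X][X]) (J : Ideal k[X][X]) (n d : ℕ) :
    Yd n d (modX A J) →+ Yd n d (modX (A.map (bc k F)) (J.map (bc k F))) where
  toFun y := ⟨fun i => bc k F ((y : Fin 4 → k[X][X]) i), by
    rw [mem_Yd_cf (k := k)]
    intro φ
    have h1 : (fun i => cf φ (bc k F ((y : Fin 4 → k[X][X]) i))) =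
        φ 1 • (y : Fin 4 → k[X][X]) := by
      funext i
      rw [cf_bc']
      rfl
    rw [h1]
    exact Submodule.smul_mem _ _ y.2⟩
  map_zero' := by
    apply Subtype.ext
    funext i
    exact map_zero _
  map_add' y y' := by
    apply Subtype.ext
    funext i
    exact map_add _ _ _

/-- The coordinate maps on graded pieces. -/
noncomputable def cfY (A : Matrix (Fin 3) (Fin 3) k[X][X]) (J : Ideal k[X][X]) (n d : ℕ)
    (φ : F →ₗ[k] k) :
    Yd n d (modX (A.map (bc k F)) (J.map (bc k F))) →+ Yd n d (modX A J) where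
  toFun w := ⟨fun i => cf φ ((w : Fin 4 → F[X][X]) i), mem_Yd_cf.1 w.2 φ⟩
  map_zero' := by
    apply Subtype.ext
    funext i
    exact map_zero _
  map_add' y y' := by
    apply Subtype.ext
    funext i
    exact map_add _ _ _

/-- **[BC]** the dimension does not change under extension of the base field. -/
theorem finrank_Yd_bc :
    finrank F (Yd n d (modX (A.map (bc k F)) (J.map (bc k F)))) =
      finrank k (Yd n d (modX A J)) := by
  refine finrank_eq_of_descent (bcY A J n d) ?_ (cfY A J n d) ?_ ?_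
  · intro c v
    apply Subtype.ext
    funext i
    exact bc_smul c _
  · intro φ a v
    apply Subtype.ext
    funext i
    exact cf_smul_bc' φ a _
  · intro w
    obtain ⟨s, hs⟩ := exists_expand_vec (Basis.ofVectorSpace k F) (w : Fin 4 → F[X][X])
    have h3 : w = ∑ i ∈ s, (Basis.ofVectorSpace k F) i •
        bcY A J n d (cfY A J n d ((Basis.ofVectorSpace k F).coord i) w) := by
      apply Subtype.ext
      funext l
      rw [Submodule.coe_sum, Finset.sum_apply]
      refine (hs l).trans (Finset.sum_congr rfl fun i _ => ?_)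
      rw [← smul_eq_CC]
      rfl
    rw [h3]
    exact sum_mem fun i _ => Submodule.smul_mem _ _ (Submodule.subset_span ⟨_, rfl⟩)

end Vale.Agent.P287.H684
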