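import Vale.Agent.P287.H684.BC1
import Vale.Agent.P287.FunctionField

/-!
Extension of the base field to a field of rational functions: prime polynomials remain prime.
-/

namespace Vale.Agent.P287.H684

open Polynomial Module Vale.Agent.P287 Vale.Agent.P287.Odd Vale.Agent.P287.H946

section Prime

variable {σ k F : Type} [Field k] [Field F] [Algebra k F] [Algebra (MvPolynomial σ k) F]
  [IsScalarTower k (MvPolynomial σ k) F]

/-- constants of constants -/
noncomputable def cc (F : Type) [Field F] : F →+* F[X][X] := (C : F[X] →+* F[X][X]).comp C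

lemma cc_apply (a : F) : cc F a = C (C a) := rfl

/-- the map `k[x][y][s] → F[x][y]` -/
noncomputable def theta (σ k F : Type) [Field k] [Field F] [Algebra k F]
    [Algebra (MvPolynomial σ k) F] : MvPolynomial σ k[X][X] →+* F[X][X] :=
  MvPolynomial.eval₂Hom (bc k F) (fun i => cc F (algebraMap (MvPolynomial σ k) F (MvPolynomial.X i)))

omit [IsScalarTower k (MvPolynomial σ k) F] in
lemma theta_C (p : k[X][X]) : theta σ k F (MvPolynomial.C p) = bc k F p := by
  rw [theta, MvPolynomial.coe_eval₂Hom, MvPolynomial.eval₂_C]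

lemma theta_map (d : MvPolynomial σ k) :
    theta σ k F (MvPolynomial.map (cc k) d) = cc F (algebraMap (MvPolynomial σ k) F d) := by
  have h1 : (theta σ k F).comp (MvPolynomial.map (cc k)) =
      (cc F).comp (algebraMap (MvPolynomial σ k) F) := by
    apply MvPolynomial.ringHom_ext
    · intro r
      rw [RingHom.comp_apply, MvPolynomial.map_C, theta_C, RingHom.comp_apply,
        ← MvPolynomial.algebraMap_eq, ← IsScalarTower.algebraMap_apply]
      simp [bc, cc]
    · intro i
      rw [RingHom.comp_apply, MvPolynomial.map_X, RingHom.comp_apply, theta,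
        MvPolynomial.coe_eval₂Hom, MvPolynomial.eval₂_X]
  exact RingHom.congr_fun h1 d

/-- the coefficient of `x^i y^j`, as a polynomial in `s` -/
noncomputable def pc (j i : ℕ) : MvPolynomial σ k[X][X] →+ MvPolynomial σ k where
  toFun U := ∑ μ ∈ U.support, MvPolynomial.monomial μ (((U.coeff μ).coeff j).coeff i)
  map_zero' := by simp
  map_add' p q := by
    classical
    have h : ∀ (p : MvPolynomial σ k[X][X]) (ν : σ →₀ ℕ), (∑ μ ∈ p.support,
        MvPolynomial.monomial μ (((p.coeff μ).coeff j).coeff i)).coeff ν =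
        ((p.coeff ν).coeff j).coeff i := by
      intro p ν
      rw [MvPolynomial.coeff_sum]
      simp only [MvPolynomial.coeff_monomial]
      rw [Finset.sum_ite_eq' p.support ν]
      split_ifs with h
      · rfl
      · rw [MvPolynomial.notMem_support_iff.1 h, coeff_zero, coeff_zero]
    ext ν
    rw [h, MvPolynomial.coeff_add, MvPolynomial.coeff_add, h, h, coeff_add, coeff_add]

lemma coeff_pc (j i : ℕ) (p : MvPolynomial σ k[X][X]) (ν : σ →₀ ℕ) :
    (pc j i p).coeff ν = ((p.coeff ν).coeff j).coeff i := by
  classical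
  change (∑ μ ∈ p.support, MvPolynomial.monomial μ (((p.coeff μ).coeff j).coeff i)).coeff ν = _
  rw [MvPolynomial.coeff_sum]
  simp only [MvPolynomial.coeff_monomial]
  rw [Finset.sum_ite_eq' p.support ν]
  split_ifs with h
  · rfl
  · rw [MvPolynomial.notMem_support_iff.1 h, coeff_zero, coeff_zero]

lemma coeff_theta (U : MvPolynomial σ k[X][X]) (j i : ℕ) :
    ((theta σ k F U).coeff j).coeff i = algebraMap (MvPolynomial σ k) F (pc j i U) := by
  classical
  induction U using MvPolynomial.induction_on' with
  | add p q hp hq =>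
    rw [map_add, map_add, map_add, coeff_add, coeff_add, hp, hq]
  | monomial μ a =>
    have h1 : (MvPolynomial.monomial μ a : MvPolynomial σ k[X][X]) =
        MvPolynomial.C a * MvPolynomial.map (cc k) (MvPolynomial.monomial μ 1) := by
      rw [MvPolynomial.map_monomial, map_one, MvPolynomial.C_mul_monomial, mul_one]
    have h2 : pc j i (MvPolynomial.monomial μ a : MvPolynomial σ k[X][X]) =
        MvPolynomial.C ((a.coeff j).coeff i) * MvPolynomial.monomial μ 1 := by
      ext ν
      rw [coeff_pc, MvPolynomial.coeff_monomial, MvPolynomial.coeff_C_mul,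
        MvPolynomial.coeff_monomial]
      split_ifs
      · rw [mul_one]
      · rw [coeff_zero, coeff_zero, mul_zero]
    rw [h2, h1, map_mul, theta_C, theta_map, cc_apply, coeff_mul_C, coeff_mul_C, coeff_bc,
      map_mul, ← MvPolynomial.algebraMap_eq, ← IsScalarTower.algebraMap_apply]

variable [IsFractionRing (MvPolynomial σ k) F]

lemma theta_injective : Function.Injective (theta σ k F) := by
  rw [injective_iff_map_eq_zero]
  intro U hU
  ext ν j i
  rw [MvPolynomial.coeff_zero, coeff_zero, coeff_zero, ← coeff_pc]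
  have h1 := coeff_theta (F := F) U j i
  rw [hU, coeff_zero, coeff_zero] at h1
  have h2 : pc j i U = 0 :=
    (map_eq_zero_iff _ (IsFractionRing.injective (MvPolynomial σ k) F)).1 h1.symm
  rw [h2, MvPolynomial.coeff_zero]

lemma exists_theta (u : F[X][X]) : ∃ (d : MvPolynomial σ k) (U : MvPolynomial σ k[X][X]),
    d ≠ 0 ∧ cc F (algebraMap _ F d) * u = theta σ k F U := by
  induction u using Polynomial.induction_on' with
  | add p q hp hq =>
    obtain ⟨d, U, hd, hU⟩ := hp
    obtain ⟨e, V, he, hV⟩ := hq
    refine ⟨d * e, MvPolynomial.map (cc k) e * U + MvPolynomial.map (cc k) d * V,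
      mul_ne_zero hd he, ?_⟩
    rw [map_add, map_mul, map_mul, map_mul, map_mul, theta_map, theta_map, ← hU, ← hV]
    ring
  | monomial j a =>
    induction a using Polynomial.induction_on' with
    | add p q hp hq =>
      obtain ⟨d, U, hd, hU⟩ := hp
      obtain ⟨e, V, he, hV⟩ := hq
      refine ⟨d * e, MvPolynomial.map (cc k) e * U + MvPolynomial.map (cc k) d * V,
        mul_ne_zero hd he, ?_⟩
      rw [map_add, map_add, map_mul, map_mul, map_mul, map_mul, theta_map, theta_map, ← hU, ← hV]
      ring
    | monomial i a =>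
      obtain ⟨n, d, hd, hnd⟩ := IsFractionRing.div_surjective (A := MvPolynomial σ k) a
      have hd0 : d ≠ 0 := nonZeroDivisors.ne_zero hd
      have hdF : algebraMap (MvPolynomial σ k) F d ≠ 0 := by
        rw [Ne, map_eq_zero_iff _ (IsFractionRing.injective (MvPolynomial σ k) F)]
        exact hd0
      refine ⟨d, MvPolynomial.map (cc k) n * MvPolynomial.C (monomial j (monomial i (1 : k))), hd0, ?_⟩
      have h1 : bc k F (monomial j (monomial i (1 : k))) = monomial j (monomial i (1 : F)) := by
        simp [bc, Polynomial.map_monomial]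
      rw [map_mul, theta_map, theta_C, h1, cc_apply, cc_apply, C_mul_monomial, C_mul_monomial,
        C_mul_monomial, C_mul_monomial, mul_one, ← hnd, mul_div_cancel₀ _ hdF]

/-- A prime polynomial remains prime over the field of rational functions. -/
theorem prime_bc_of_isFractionRing (σ : Type) [Algebra (MvPolynomial σ k) F]
    [IsScalarTower k (MvPolynomial σ k) F] [IsFractionRing (MvPolynomial σ k) F]
    {g : k[X][X]} (hg : Prime g) : Prime (bc k F g) := by
  have hCg : Prime (MvPolynomial.C g : MvPolynomial σ k[X][X]) := (MvPolynomial.prime_C_iff σ).2 hg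
  have hnd : ∀ d : MvPolynomial σ k, d ≠ 0 → ¬ MvPolynomial.C g ∣ MvPolynomial.map (cc k) d := by
    intro d hd h
    obtain ⟨μ, hμ⟩ := MvPolynomial.ne_zero_iff.1 hd
    have h1 := (MvPolynomial.C_dvd_iff_dvd_coeff _ _).1 h μ
    rw [MvPolynomial.coeff_map] at h1
    exact hg.not_isUnit (isUnit_of_dvd_unit h1 ((isUnit_iff_ne_zero.2 hμ).map (cc k)))
  have hunit : ∀ d : MvPolynomial σ k, d ≠ 0 → IsUnit (cc F (algebraMap _ F d)) := by
    intro d hd
    refine IsUnit.map (cc F) (isUnit_iff_ne_zero.2 ?_)
    rw [Ne, map_eq_zero_iff _ (IsFractionRing.injective (MvPolynomial σ k) F)]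
    exact hd
  refine ⟨?_, ?_, ?_⟩
  · rw [Ne, map_eq_zero_iff _ bc_injective]
    exact hg.ne_zero
  · intro h
    have h1 : bc k F g ∣ bc k F 1 := by
      rw [map_one]
      exact h.dvd
    exact hg.not_isUnit (isUnit_of_dvd_one (bc_dvd_bc.1 h1))
  · rintro u v ⟨w, hw⟩
    obtain ⟨d₁, U, hd₁, hU⟩ := exists_theta (σ := σ) (k := k) u
    obtain ⟨d₂, V, hd₂, hV⟩ := exists_theta (σ := σ) (k := k) v
    obtain ⟨d₃, W, hd₃, hW⟩ := exists_theta (σ := σ) (k := k) w
    have h1 : MvPolynomial.map (cc k) d₃ * (U * V) =
        MvPolynomial.C g * (MvPolynomial.map (cc k) (d₁ * d₂) * W) := by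
      apply theta_injective (F := F)
      rw [map_mul, map_mul, map_mul, map_mul, theta_C, theta_map, theta_map, ← hU, ← hV, ← hW,
        map_mul, map_mul]
      linear_combination (cc F (algebraMap _ F d₁) * cc F (algebraMap _ F d₂) *
        cc F (algebraMap _ F d₃)) * hw
    rcases hCg.dvd_or_dvd ⟨_, h1⟩ with h2 | h2
    · exact absurd h2 (hnd d₃ hd₃)
    · rcases hCg.dvd_or_dvd h2 with h3 | h3
      · left
        have h4 := _root_.map_dvd (theta σ k F) h3
        rw [theta_C, ← hU] at h4
        exact ((hunit d₁ hd₁).dvd_mul_left).1 h4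
      · right
        have h4 := _root_.map_dvd (theta σ k F) h3
        rw [theta_C, ← hV] at h4
        exact ((hunit d₂ hd₂).dvd_mul_left).1 h4

end Prime

/-- A prime polynomial over `ℂ` remains prime over `ℂ(s₀, s₁)`. -/
theorem prime_bc {g : ℂ[X][X]} (hg : Prime g) : Prime (bc ℂ RatK g) :=
  prime_bc_of_isFractionRing (Fin 2) hg

end Vale.Agent.P287.H684
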