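import Mathlib

/-!
Total degree of elements of `k[x][y]` (outer variable `y = X`, inner variable `x = C X`).
-/

namespace Vale.Agent.P287.H684

open Polynomial

variable {k : Type*} [Field k]

/-- `p` has total degree at most `m`. -/
def TW (m : ℕ) (p : k[X][X]) : Prop := ∀ j, p.coeff j ≠ 0 → (p.coeff j).natDegree + j ≤ m

lemma TW_iff {m : ℕ} {p : k[X][X]} :
    TW m p ↔ ∀ i j, m < i + j → (p.coeff j).coeff i = 0 := by
  constructor
  · intro h i j hij
    by_cases h0 : p.coeff j = 0
    · rw [h0, coeff_zero]
    · refine coeff_eq_zero_of_natDegree_lt ?_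
      have := h j h0
      omega
  · intro h j h0
    by_contra hc
    rw [not_le] at hc
    refine h0 ?_
    have h1 := h (p.coeff j).natDegree j hc
    exact leadingCoeff_eq_zero.mp h1

lemma TW.coeff_eq_zero {m : ℕ} {p : k[X][X]} (h : TW m p) {j : ℕ} (hj : m < j) :
    p.coeff j = 0 := by
  ext i
  rw [coeff_zero]
  exact TW_iff.mp h i j (by omega)

lemma TW.natDegree_coeff_le {m : ℕ} {p : k[X][X]} (h : TW m p) (j : ℕ) :
    (p.coeff j).natDegree ≤ m - j := by
  rw [natDegree_le_iff_coeff_eq_zero]
  intro N hN
  exact TW_iff.mp h N j (by omega)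

lemma TW.natDegree_le {m : ℕ} {p : k[X][X]} (h : TW m p) : p.natDegree ≤ m := by
  rw [natDegree_le_iff_coeff_eq_zero]
  exact fun N hN => h.coeff_eq_zero hN

lemma TW_zero (m : ℕ) : TW m (0 : k[X][X]) := fun j h => absurd (coeff_zero j) h

lemma TW.mono {m n : ℕ} {p : k[X][X]} (h : TW m p) (hmn : m ≤ n) : TW n p :=
  fun j hj => (h j hj).trans hmn

lemma TW.add {m : ℕ} {p q : k[X][X]} (hp : TW m p) (hq : TW m q) : TW m (p + q) := by
  rw [TW_iff] at *
  intro i j hij
  rw [coeff_add, coeff_add, hp i j hij, hq i j hij, add_zero]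

lemma TW.neg {m : ℕ} {p : k[X][X]} (hp : TW m p) : TW m (-p) := by
  rw [TW_iff] at *
  intro i j hij
  rw [coeff_neg, coeff_neg, hp i j hij, neg_zero]

lemma TW.sub {m : ℕ} {p q : k[X][X]} (hp : TW m p) (hq : TW m q) : TW m (p - q) := by
  rw [sub_eq_add_neg]
  exact hp.add hq.neg

lemma TW.sum {m : ℕ} {ι : Type*} (s : Finset ι) (p : ι → k[X][X]) (h : ∀ i ∈ s, TW m (p i)) :
    TW m (∑ i ∈ s, p i) := by
  classical
  induction s using Finset.induction_on with
  | empty => simpa using TW_zero m
  | insert a s ha ih =>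
    rw [Finset.sum_insert ha]
    exact (h a (Finset.mem_insert_self a s)).add
      (ih fun i hi => h i (Finset.mem_insert_of_mem hi))

lemma TW.mul {m n : ℕ} {p q : k[X][X]} (hp : TW m p) (hq : TW n q) : TW (m + n) (p * q) := by
  rw [TW_iff] at *
  intro i j hij
  rw [coeff_mul, finsetSum_coeff]
  refine Finset.sum_eq_zero fun x hx => ?_
  rw [Finset.HasAntidiagonal.mem_antidiagonal] at hx
  rw [coeff_mul]
  refine Finset.sum_eq_zero fun y hy => ?_
  rw [Finset.HasAntidiagonal.mem_antidiagonal] at hy
  by_cases h1 : m < y.1 + x.1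
  · rw [hp _ _ h1, zero_mul]
  · rw [hq y.2 x.2 (by omega), mul_zero]

lemma TW_C {m : ℕ} {a : k[X]} (ha : a.natDegree ≤ m) : TW m (C a) := by
  rw [TW_iff]
  intro i j hij
  rw [coeff_C]
  split_ifs with h
  · exact coeff_eq_zero_of_natDegree_lt (by omega)
  · exact coeff_zero i

lemma TW_CC (m : ℕ) (c : k) : TW m (C (C c)) := TW_C (by simp)

lemma TW_one (m : ℕ) : TW m (1 : k[X][X]) := by simpa using TW_CC m (1 : k)

lemma TW_X : TW 1 (X : k[X][X]) := by
  rw [TW_iff]
  intro i j hij
  rw [coeff_X]
  split_ifs with h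
  · rw [coeff_one, if_neg (by omega)]
  · exact coeff_zero i

lemma TW_CX : TW 1 (C X : k[X][X]) := TW_C (by simp)

lemma TW.CC_mul {m : ℕ} {p : k[X][X]} (hp : TW m p) (c : k) : TW m (C (C c) * p) := by
  simpa using (TW_CC 0 c).mul hp

lemma TW.pow {m : ℕ} {p : k[X][X]} (hp : TW m p) (n : ℕ) : TW (n * m) (p ^ n) := by
  induction n with
  | zero => simpa using TW_one 0
  | succ n ih =>
    rw [pow_succ, Nat.succ_mul]
    exact ih.mul hp

lemma TW.smul {m : ℕ} {p : k[X][X]} (hp : TW m p) (c : k) : TW m (c • p) := by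
  have : c • p = C (C c) * p := by
    ext i j
    simp [coeff_smul, coeff_C_mul]
  rw [this]
  exact hp.CC_mul c

lemma TW.monomial {m : ℕ} {a : k[X]} {n : ℕ} (h : a ≠ 0 → a.natDegree + n ≤ m) :
    TW m (Polynomial.monomial n a) := by
  intro j hj
  rw [coeff_monomial] at hj ⊢
  split_ifs at hj ⊢ with h1
  · rw [← h1]
    exact h hj
  · exact absurd rfl hj

/-- Division with remainder by a polynomial which is monic in `y` and whose total degree is its
degree in `y`. -/
lemma TW.modByMonic {m e : ℕ} {p F : k[X][X]} (hF : F.Monic) (hFk : F.natDegree = e)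
    (hFW : TW e F) (hp : TW m p) : TW m (p %ₘ F) := by
  induction hn : p.natDegree using Nat.strong_induction_on generalizing p with
  | _ n ih =>
    by_cases hF1 : F = 1
    · rw [hF1, modByMonic_one]
      exact TW_zero m
    have hk : 0 < e := by
      rcases Nat.eq_zero_or_pos e with h0 | h0
      · exact absurd (hF.natDegree_eq_zero.mp (hFk.trans h0)) hF1
      · exact h0
    by_cases hp0 : p = 0
    · rw [hp0, zero_modByMonic]
      exact TW_zero m
    by_cases hnk : n < e
    · rw [(modByMonic_eq_self_iff hF).mpr]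
      · exact hp
      · exact degree_lt_degree (by omega)
    · rw [not_lt] at hnk
      set q : k[X][X] := Polynomial.monomial (n - e) p.leadingCoeff with hq
      have hlc : p.leadingCoeff.natDegree + n ≤ m := by
        have := hp n (by rw [← hn]; exact leadingCoeff_ne_zero.mpr hp0)
        rw [leadingCoeff, hn]
        exact this
      have hqW : TW (m - e) q := by
        refine TW.monomial fun _ => ?_
        omega
      have hqF : TW m (q * F) := by
        have := hqW.mul hFW
        rwa [Nat.sub_add_cancel (by omega)] at this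
      have hmod : p %ₘ F = (p - q * F) %ₘ F := by
        rw [sub_modByMonic, (modByMonic_eq_zero_iff_dvd hF).mpr (dvd_mul_left F q), sub_zero]
      rw [hmod]
      have hdeg : (p - q * F).natDegree < n := by
        have hlc0 : p.leadingCoeff ≠ 0 := leadingCoeff_ne_zero.mpr hp0
        have h1 : (q * F).natDegree = n := by
          rw [mul_comm, hF.natDegree_mul' (by rw [hq, Ne, monomial_eq_zero_iff]; exact hlc0), hq,
            natDegree_monomial_eq _ hlc0, hFk]
          omega
        have h2 : (q * F).coeff n = p.coeff n := by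
          have h3 : (q * F).leadingCoeff = p.leadingCoeff := by
            rw [leadingCoeff_mul_monic hF, hq, leadingCoeff_monomial]
          rw [leadingCoeff, leadingCoeff, h1, hn] at h3
          exact h3
        have h4 : (p - q * F).natDegree ≤ n :=
          (natDegree_sub_le _ _).trans (max_le hn.le h1.le)
        have h5 : (p - q * F).coeff n = 0 := by rw [coeff_sub, h2, sub_self]
        rcases Nat.lt_or_ge (p - q * F).natDegree n with h6 | h6
        · exact h6
        · have h7 : (p - q * F).natDegree = n := le_antisymm h4 h6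
          have h8 : (p - q * F).leadingCoeff = 0 := by rw [leadingCoeff, h7, h5]
          rw [leadingCoeff_eq_zero.mp h8, natDegree_zero] at h7
          omega
      exact ih _ hdeg (hp.sub hqF) rfl

end Vale.Agent.P287.H684
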