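import Vale.Agent.P287.H684.BC3
import Vale.Agent.P287.H684.Inf

/-!
The conditions at infinity for a generic linear combination, and the extension of the base field of
an isotropic vector.
-/

namespace Vale.Agent.P287.H684

open Polynomial Module Matrix Vale.Agent.P287 Vale.Agent.P287.Odd Vale.Agent.P287.H946

lemma tvec_indep {c : Fin 3 → ℂ} (h : ∑ i, tvec i * algebraMap ℂ RatK (c i) = 0) (i : Fin 3) :
    c i = 0 := by
  have h1 : algebraMap (MvPolynomial (Fin 2) ℂ) RatK (MvPolynomial.C (c 0) +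
      MvPolynomial.X 0 * MvPolynomial.C (c 1) + MvPolynomial.X 1 * MvPolynomial.C (c 2)) = 0 := by
    rw [Fin.sum_univ_three] at h
    rw [map_add, map_add, map_mul, map_mul, ← MvPolynomial.algebraMap_eq,
      ← IsScalarTower.algebraMap_apply, ← IsScalarTower.algebraMap_apply,
      ← IsScalarTower.algebraMap_apply, ← h]
    simp [tvec]
  have h2 := (map_eq_zero_iff _ (IsFractionRing.injective (MvPolynomial (Fin 2) ℂ) RatK)).1 h1
  have h3 : ∀ z : Fin 2 → ℂ, c 0 + z 0 * c 1 + z 1 * c 2 = 0 := by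
    intro z
    have := congrArg (MvPolynomial.eval z) h2
    simpa using this
  have e0 := h3 ![0, 0]
  have e1 := h3 ![1, 0]
  have e2 := h3 ![0, 1]
  simp at e0 e1 e2
  rw [e0, zero_add] at e1 e2
  fin_cases i
  · exact e0
  · exact e1
  · exact e2

lemma top_bc {k F : Type} [Field k] [Field F] [Algebra k F] (m : ℕ) (p : k[X][X]) :
    top m (bc k F p) = (top m p).map (algebraMap k F) := by
  ext j
  rw [coeff_top, coeff_map, coeff_top]
  split_ifs
  · rw [coeff_bc]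
  · rw [map_zero]

lemma top_CC_mul {k : Type} [Field k] (m : ℕ) (a : k) (p : k[X][X]) :
    top m (C (C a) * p) = C a * top m p := by
  ext j
  have e1 : (C a * top m p).coeff j = a * (top m p).coeff j := coeff_C_mul _
  rw [e1, coeff_top, coeff_top]
  split_ifs
  · rw [coeff_C_mul, coeff_C_mul]
  · rw [mul_zero]

lemma isCoprime_X_sub_C {K : Type*} [Field K] {a : K} {p : K[X]} (h : p.eval a ≠ 0) :
    IsCoprime (X - C a) p := by
  obtain ⟨q, hq⟩ := dvd_iff_isRoot.2 (show (p - C (p.eval a)).IsRoot a by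
    rw [IsRoot.def, eval_sub, eval_C, sub_self])
  refine ⟨-(C (p.eval a)⁻¹ * q), C (p.eval a)⁻¹, ?_⟩
  have h1 : C (p.eval a)⁻¹ * C (p.eval a) = (1 : K[X]) := by
    rw [← C_mul, inv_mul_cancel₀ h, C_1]
  linear_combination C (p.eval a)⁻¹ * hq + h1

lemma isCoprime_C {K : Type*} [Field K] {a : K} {p : K[X]} (h : a ≠ 0) :
    IsCoprime (C a) p :=
  ⟨C a⁻¹, 0, by rw [zero_mul, add_zero, ← C_mul, inv_mul_cancel₀ h, C_1]⟩

/-- coprimality of a generic linear combination -/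
lemma isCoprime_generic (w : Fin 3 → ℂ[X]) : ∀ (n : ℕ) (G : ℂ[X]), G.natDegree = n → G ≠ 0 →
    (∀ z, G.eval z = 0 → ∃ i, (w i).eval z ≠ 0) →
    IsCoprime (G.map (algebraMap ℂ RatK)) (∑ i, C (tvec i) * (w i).map (algebraMap ℂ RatK)) := by
  intro n
  induction n with
  | zero =>
    intro G hG hG0 _
    rw [eq_C_of_natDegree_eq_zero hG, Polynomial.map_C]
    refine isCoprime_C ?_
    rw [Ne, map_eq_zero_iff _ (algebraMap ℂ RatK).injective]
    intro h
    rw [eq_C_of_natDegree_eq_zero hG, h, C_0] at hG0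
    exact hG0 rfl
  | succ n ih =>
    intro G hG hG0 hw
    have hdeg : G.degree ≠ 0 := by
      rw [degree_eq_natDegree hG0, hG]
      simp only [Ne, Nat.cast_eq_zero]
      omega
    obtain ⟨z, hz⟩ := IsAlgClosed.exists_root G hdeg
    obtain ⟨G', hG'⟩ := dvd_iff_isRoot.2 hz
    have hG'0 : G' ≠ 0 := by
      rintro rfl
      rw [mul_zero] at hG'
      exact hG0 hG'
    have h1 : G'.natDegree = n := by
      rw [hG', natDegree_mul (X_sub_C_ne_zero z) hG'0, natDegree_X_sub_C] at hG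
      omega
    rw [hG', Polynomial.map_mul]
    refine IsCoprime.mul_left ?_ (ih G' h1 hG'0 fun y hy => hw y (by
      rw [hG', eval_mul, hy, mul_zero]))
    rw [Polynomial.map_sub, map_X, map_C]
    refine isCoprime_X_sub_C fun h2 => ?_
    obtain ⟨i, hi⟩ := hw z (by rw [hG', eval_mul, eval_sub, eval_X, eval_C, sub_self, zero_mul])
    apply hi
    refine tvec_indep (c := fun i => (w i).eval z) ?_ i
    rw [eval_finsetSum] at h2
    rw [← h2]
    refine Finset.sum_congr rfl fun i _ => ?_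
    rw [eval_mul, eval_C, eval_map_algebraMap, aeval_algebraMap_apply]
    rfl

/-- The generic linear combination is regular at infinity. -/
theorem inf_generic {g : ℂ[X][X]} {n d : ℕ} {w : Fin 3 → ℂ[X][X]} (hg : g.Monic)
    (hgn : g.natDegree = n) (hgW : Wd n g) (hw : ∀ i, Wd d (w i))
    (h : ∀ z : ℂ, (top n g).eval z = 0 → ∃ i, (top d (w i)).eval z ≠ 0) :
    InfUnit n (bc ℂ RatK g) d (cx tvec ⬝ᵥ fun i => bc ℂ RatK (w i)) := by
  have h1 : (cx tvec ⬝ᵥ fun i => bc ℂ RatK (w i)) = ∑ i, C (C (tvec i)) * bc ℂ RatK (w i) := rfl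
  refine infUnit_of_coprime (bc_monic hg) (by rw [natDegree_bc, hgn]) (Wd_bc.2 hgW) ?_ ?_
  · rw [h1, Wd_iff_TW]
    refine TW.sum _ _ fun i _ => TW.CC_mul ?_ _
    rw [← Wd_iff_TW]
    exact Wd_bc.2 (hw i)
  · rw [h1, top_sum, top_bc]
    have h2 : ∀ i ∈ Finset.univ, top d (C (C (tvec i)) * bc ℂ RatK (w i)) =
        C (tvec i) * (top d (w i)).map (algebraMap ℂ RatK) := by
      intro i _
      rw [top_CC_mul, top_bc]
    rw [Finset.sum_congr rfl h2]
    exact isCoprime_generic _ _ _ rfl (monic_top hg hgn).1.ne_zero h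

lemma bc_dotProduct {k F : Type} [Field k] [Field F] [Algebra k F] (v w : Fin 3 → k[X][X]) :
    bc k F (v ⬝ᵥ w) = (fun i => bc k F (v i)) ⬝ᵥ fun i => bc k F (w i) := by
  simp only [dotProduct, map_sum, map_mul]

lemma bc_mulVec' {k F : Type} [Field k] [Field F] [Algebra k F]
    (N : Matrix (Fin 3) (Fin 3) k[X][X]) (w : Fin 3 → k[X][X]) :
    (N.map (bc k F) *ᵥ fun j => bc k F (w j)) = fun i => bc k F ((N *ᵥ w) i) := by
  funext i
  simp only [mulVec, dotProduct, Matrix.map_apply, map_sum, map_mul]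

/-- Extension of the base field of an isotropic vector. -/
theorem iso_bc {m : ℕ} {g : ℂ[X][X]} {A : Matrix (Fin 3) (Fin 3) ℂ[X][X]}
    {ν : Fin 3 → ℂ[X][X]} {d : ℕ} (hg : g.Monic) (hgn : g.natDegree = 2 * m + 1)
    (hgW : Wd (2 * m + 1) g) (hA : ∀ i j, Wd 2 (A i j)) (hiso : g ∣ ν ⬝ᵥ (A *ᵥ ν))
    (hν : ∀ i, Wd d (ν i))
    (h : ∀ z : ℂ, (top (2 * m + 1) g).eval z = 0 → ∃ i, (top d (ν i)).eval z ≠ 0)
    (h' : ∀ z : ℂ, (top (2 * m + 1) g).eval z = 0 → ∃ i, (top (d + 2) ((A *ᵥ ν) i)).eval z ≠ 0)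
    (hline : ∃ (z : Fin 3 → ℂ[X][X]) (β γ : ℂ[X][X]), z ⬝ᵥ ν + β * g + γ * C X = 1) :
    Iso m (bc ℂ RatK g) (A.map (bc ℂ RatK)) tvec (fun i => bc ℂ RatK (ν i)) d where
  iso := by
    rw [bc_mulVec', ← bc_dotProduct]
    exact _root_.map_dvd _ hiso
  wd := fun i => Wd_bc.2 (hν i)
  inf := inf_generic hg hgn hgW hν h
  inf' := by
    rw [bc_mulVec']
    refine inf_generic hg hgn hgW (fun i => ?_) h'
    rw [mulVec, dotProduct, Wd_iff_TW]
    refine TW.sum _ _ fun j _ => ?_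
    rw [add_comm]
    exact (Wd_iff_TW.1 (hA i j)).mul (Wd_iff_TW.1 (hν j))
  line := by
    obtain ⟨z, β, γ, h1⟩ := hline
    refine ⟨fun i => bc ℂ RatK (z i), bc ℂ RatK β, bc ℂ RatK γ, ?_⟩
    have h2 := congrArg (bc ℂ RatK) h1
    rw [map_add, map_add, map_mul, map_mul, map_one, bc_dotProduct] at h2
    have h3 : bc ℂ RatK (C X) = C X := by simp [bc]
    rwa [h3] at h2

end Vale.Agent.P287.H684
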